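import Mathlib

/-!
# P113: block systems and two-stack rewriting systems (interfaces)
-/

namespace Vale.Agent.P113

/-- A finite system of source boxes `[a i, b i] × [c i, d i]` and target boxes
`[a' i, b' i] × [c' i, d' i]` in the open unit square, with rational corners; source boxes are
pairwise separated and so are target boxes.  Some of the boxes are flagged. -/
structure BlockSystem where
  n : ℕ
  a : Fin n → ℚ
  b : Fin n → ℚ
  c : Fin n → ℚ
  d : Fin n → ℚ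
  a' : Fin n → ℚ
  b' : Fin n → ℚ
  c' : Fin n → ℚ
  d' : Fin n → ℚ
  flag : Fin n → Bool
  a_pos : ∀ i, 0 < a i
  ab : ∀ i, a i < b i
  b_lt : ∀ i, b i < 1
  c_pos : ∀ i, 0 < c i
  cd : ∀ i, c i < d i
  d_lt : ∀ i, d i < 1
  a'_pos : ∀ i, 0 < a' i
  ab' : ∀ i, a' i < b' i
  b'_lt : ∀ i, b' i < 1
  c'_pos : ∀ i, 0 < c' i
  cd' : ∀ i, c' i < d' i
  d'_lt : ∀ i, d' i < 1
  src_sep : ∀ i j, i ≠ j → b i < a j ∨ b j < a i ∨ d i < c j ∨ d j < c i
  tgt_sep : ∀ i j, i ≠ j → b' i < a' j ∨ b' j < a' i ∨ d' i < c' j ∨ d' j < c' i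

namespace BlockSystem

variable (S : BlockSystem)

/-- The point `P` lies in the source box `i`. -/
def InSrc (i : Fin S.n) (P : ℝ × ℝ) : Prop :=
  (S.a i : ℝ) ≤ P.1 ∧ P.1 ≤ S.b i ∧ (S.c i : ℝ) ≤ P.2 ∧ P.2 ≤ S.d i

/-- The coordinatewise increasing affine map of the source box `i` onto the target box `i`. -/
noncomputable def map (i : Fin S.n) (P : ℝ × ℝ) : ℝ × ℝ :=
  ((S.a' i : ℝ) + (S.b' i - S.a' i) / (S.b i - S.a i) * (P.1 - S.a i),
   (S.c' i : ℝ) + (S.d' i - S.c' i) / (S.d i - S.c i) * (P.2 - S.c i))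

/-- The orbit of `P` uses unflagged boxes only, for ever. -/
def RunsForever (P : ℝ × ℝ) : Prop :=
  ∃ (Q : ℕ → ℝ × ℝ) (i : ℕ → Fin S.n), Q 0 = P ∧
    ∀ k, S.InSrc (i k) (Q k) ∧ S.flag (i k) = false ∧ Q (k + 1) = S.map (i k) (Q k)

/-- The orbit of `P` uses finitely many unflagged boxes and then meets a flagged box. -/
def HitsFlag (P : ℝ × ℝ) : Prop :=
  ∃ (N : ℕ) (Q : ℕ → ℝ × ℝ) (i : ℕ → Fin S.n), Q 0 = P ∧
    (∀ k < N, S.InSrc (i k) (Q k) ∧ S.flag (i k) = false ∧ Q (k + 1) = S.map (i k) (Q k)) ∧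
    S.InSrc (i N) (Q N) ∧ S.flag (i N) = true

end BlockSystem

/-- Two words are incompatible: none is an initial segment of the other. -/
def Incompat (u v : List ℕ) : Prop := ¬ u <+: v ∧ ¬ v <+: u

/-- A finite two-stack rewriting system: rule `i` replaces the top segments `src i` of the two
stacks by `tgt i`.  Letters are numbers `1, …, K-2`.  Source patterns are pairwise incompatible and
so are target patterns. -/
structure RewSystem where
  n : ℕ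
  K : ℕ
  src : Fin n → List ℕ × List ℕ
  tgt : Fin n → List ℕ × List ℕ
  flag : Fin n → Bool
  src1_mem : ∀ i, ∀ x ∈ (src i).1, 1 ≤ x ∧ x + 2 ≤ K
  src2_mem : ∀ i, ∀ x ∈ (src i).2, 1 ≤ x ∧ x + 2 ≤ K
  tgt1_mem : ∀ i, ∀ x ∈ (tgt i).1, 1 ≤ x ∧ x + 2 ≤ K
  tgt2_mem : ∀ i, ∀ x ∈ (tgt i).2, 1 ≤ x ∧ x + 2 ≤ K
  src_sep : ∀ i j, i ≠ j → Incompat (src i).1 (src j).1 ∨ Incompat (src i).2 (src j).2
  tgt_sep : ∀ i j, i ≠ j → Incompat (tgt i).1 (tgt j).1 ∨ Incompat (tgt i).2 (tgt j).2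

namespace RewSystem

variable (S : RewSystem)

/-- Rule `i` rewrites the pair of stacks `c` to `c'`. -/
def Step (i : Fin S.n) (c c' : List ℕ × List ℕ) : Prop :=
  ∃ L R, c = ((S.src i).1 ++ L, (S.src i).2 ++ R) ∧ c' = ((S.tgt i).1 ++ L, (S.tgt i).2 ++ R)

/-- The letters of the pair of stacks are in the range `1, …, K-2`. -/
def Good (c : List ℕ × List ℕ) : Prop :=
  (∀ x ∈ c.1, 1 ≤ x ∧ x + 2 ≤ S.K) ∧ (∀ x ∈ c.2, 1 ≤ x ∧ x + 2 ≤ S.K)

/-- The run from `c` uses unflagged rules only, for ever. -/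
def RunsForever (c : List ℕ × List ℕ) : Prop :=
  ∃ (Q : ℕ → List ℕ × List ℕ) (i : ℕ → Fin S.n), Q 0 = c ∧
    ∀ k, S.flag (i k) = false ∧ S.Step (i k) (Q k) (Q (k + 1))

/-- The run from `c` uses finitely many unflagged rules and then a flagged rule. -/
def HitsFlag (c : List ℕ × List ℕ) : Prop :=
  ∃ (N : ℕ) (Q : ℕ → List ℕ × List ℕ) (i : ℕ → Fin S.n), Q 0 = c ∧
    (∀ k < N, S.flag (i k) = false ∧ S.Step (i k) (Q k) (Q (k + 1))) ∧
    (∃ c', S.Step (i N) (Q N) c') ∧ S.flag (i N) = true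

end RewSystem

end Vale.Agent.P113
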