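import Mathlib

/-!
# P113: the definitions used in the statement

Forced Navier-Stokes flows on the flat three-torus, admissible functions, Turing machines and
force compilers.  Functions on the torus are `ℤ³`-periodic functions on `Fin 3 → ℝ`.
-/

open MeasureTheory

namespace Vale.Agent.P113

/-! ## Turing machines -/

/-- A deterministic one-tape Turing machine with states `Fin (s+1)`, alphabet `Fin (k+1)`
(the symbol `0` is the blank), a start state and a set of halting states.
`δ q a = (q', b, d)` means: in state `q` reading `a`, write `b`, pass to state `q'` and move the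
head by `d - 1` cells (`d = 0`: one cell to the left, `d = 1`: no move, `d = 2`: to the right). -/
structure Machine where
  s : ℕ
  k : ℕ
  start : Fin (s + 1)
  halting : Fin (s + 1) → Bool
  δ : Fin (s + 1) → Fin (k + 1) → Fin (s + 1) × Fin (k + 1) × Fin 3

/-- A configuration: the state, the position of the head and the two-sided tape. -/
structure Machine.Config (M : Machine) where
  state : Fin (M.s + 1)
  head : ℤ
  tape : ℤ → Fin (M.k + 1)

/-- One step of the machine. -/
def Machine.step (M : Machine) (c : M.Config) : M.Config where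
  state := (M.δ c.state (c.tape c.head)).1
  head := c.head + (((M.δ c.state (c.tape c.head)).2.2 : ℕ) : ℤ) - 1
  tape := Function.update c.tape c.head (M.δ c.state (c.tape c.head)).2.1

/-- The initial configuration: the word `w` written on the cells `0, 1, …` of an otherwise blank
two-sided tape, the head at cell `0`, the machine in its start state. -/
def Machine.initial (M : Machine) (w : List (Fin (M.k + 1))) : M.Config where
  state := M.start
  head := 0
  tape := fun z => if 0 ≤ z then w.getD z.toNat 0 else 0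

/-- `M` halts on `w`: it reaches a halting state after finitely many steps, possibly none. -/
def Machine.HaltsOn (M : Machine) (w : List (Fin (M.k + 1))) : Prop :=
  ∃ n : ℕ, M.halting (M.step^[n] (M.initial w)).state = true

/-- Finite descriptions of machines: number of states minus one, number of symbols minus one,
start state, list of halting flags, and the transition table, row by row. -/
abbrev MachineCode := ℕ × ℕ × ℕ × List Bool × List (List (ℕ × ℕ × ℕ))

/-- The finite description of a machine, handed to the compiler. -/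
def Machine.code (M : Machine) : MachineCode :=
  (M.s, M.k, M.start.val, List.ofFn M.halting,
    List.ofFn fun q => List.ofFn fun a =>
      ((M.δ q a).1.val, (M.δ q a).2.1.val, (M.δ q a).2.2.val))

/-- The finite description of an input word. -/
def wordCode {k : ℕ} (w : List (Fin (k + 1))) : List ℕ := w.map Fin.val

/-! ## Admissible functions -/

/-- The standard bump `ρ(s) = exp(-1/(1-s²))` for `|s| < 1`, and `0` otherwise. -/
noncomputable def rho (s : ℝ) : ℝ := if |s| < 1 then Real.exp (-1 / (1 - s ^ 2)) else 0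

/-- `κ = ∫ ρ`. -/
noncomputable def kappa : ℝ := ∫ s, rho s

/-- `σ(s) = ∫_{-∞}^s ρ`. -/
noncomputable def sigma (s : ℝ) : ℝ := ∫ r in Set.Iic s, rho r

/-- `π_ℓ(s) = σ(s) - σ(s - ℓ)`. -/
noncomputable def piL (l s : ℝ) : ℝ := sigma s - sigma (s - l)

/-- The rational number `p/(q+1)` described by a pair of integers `(p, q)`, `q ≥ 0`. -/
def ratVal (r : ℤ × ℕ) : ℚ := (r.1 : ℚ) / ((r.2 : ℚ) + 1)

/-- A finite description of a bump: `shape = inl j` for `s ↦ s^k ρ^{(j)}(a s - b)` and
`shape = inr ℓ` for `s ↦ s^k π_ℓ(a s - b)`, with rationals `a`, `b`, `ℓ`. -/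
structure Bump where
  shape : ℕ ⊕ (ℤ × ℕ)
  k : ℕ
  a : ℤ × ℕ
  b : ℤ × ℕ

/-- The conditions `a ≠ 0` and `ℓ > 0`. -/
def Bump.Valid (g : Bump) : Prop :=
  ratVal g.a ≠ 0 ∧ ∀ l, g.shape = Sum.inr l → 0 < ratVal l

/-- The function described by a bump. -/
noncomputable def Bump.val (g : Bump) (s : ℝ) : ℝ :=
  s ^ g.k * (match g.shape with
    | Sum.inl j => iteratedDeriv j rho ((ratVal g.a : ℝ) * s - (ratVal g.b : ℝ))
    | Sum.inr l => piL (ratVal l : ℝ) ((ratVal g.a : ℝ) * s - (ratVal g.b : ℝ)))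

/-- The `1`-periodization `P[g](y) = ∑_{m ∈ ℤ} g(y + m)`. -/
noncomputable def periodize (g : ℝ → ℝ) (y : ℝ) : ℝ := ∑' m : ℤ, g (y + m)

/-- A finite description of a term `c θ(t) h₁(x₁) h₂(x₂) h₃(x₃)`.  The coefficient is
`c = q ν^m κ^n ∏ ln r_i`; `θ` is the product of the factors in `time`, where the flag `true` marks
a periodized bump and `false` a bump itself; `h_i` is the product of the periodizations of the bumps
in `space i` (an empty product is `1`). -/
structure Term where
  q : ℤ × ℕ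
  m : ℕ
  n : ℤ
  logs : List (ℤ × ℕ)
  time : List (Bool × Bump)
  space : Fin 3 → List Bump

/-- Validity of a term: `r_i > 0` and all bumps are valid. -/
def Term.Valid (τ : Term) : Prop :=
  (∀ r ∈ τ.logs, 0 < ratVal r) ∧ (∀ g ∈ τ.time, g.2.Valid) ∧ ∀ i, ∀ g ∈ τ.space i, g.Valid

/-- A term is periodic if its time factor is `1` or a product of periodizations only. -/
def Term.isPeriodic (τ : Term) : Bool := τ.time.all fun g => g.1

/-- The coefficient `c = q ν^m κ^n ∏ ln r_i`. -/
noncomputable def Term.coeff (τ : Term) (ν : ℝ) : ℝ :=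
  (ratVal τ.q : ℝ) * ν ^ τ.m * kappa ^ τ.n * (τ.logs.map fun r => Real.log (ratVal r : ℝ)).prod

/-- The time factor `θ(t)`. -/
noncomputable def Term.timeVal (τ : Term) (t : ℝ) : ℝ :=
  (τ.time.map fun g => if g.1 then periodize g.2.val t else g.2.val t).prod

/-- The space factor `h₁(x₁) h₂(x₂) h₃(x₃)`. -/
noncomputable def Term.spaceVal (τ : Term) (x : Fin 3 → ℝ) : ℝ :=
  ∏ i, ((τ.space i).map fun g => periodize g.val (x i)).prod

/-- The function described by a term. -/
noncomputable def Term.val (τ : Term) (ν t : ℝ) (x : Fin 3 → ℝ) : ℝ :=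
  τ.coeff ν * τ.timeVal t * τ.spaceVal x

/-- The admissible function described by a finite list of terms. -/
noncomputable def evalTerms (L : List Term) (ν t : ℝ) (x : Fin 3 → ℝ) : ℝ :=
  (L.map fun τ => τ.val ν t x).sum

/-! ## Force compilers -/

/-- The data of a bump as a tuple. -/
def Bump.toTuple (g : Bump) : (ℕ ⊕ (ℤ × ℕ)) × ℕ × (ℤ × ℕ) × (ℤ × ℕ) := (g.shape, g.k, g.a, g.b)

/-- The bump with given data. -/
def Bump.ofTuple (g : (ℕ ⊕ (ℤ × ℕ)) × ℕ × (ℤ × ℕ) × (ℤ × ℕ)) : Bump :=
  ⟨g.1, g.2.1, g.2.2.1, g.2.2.2⟩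

/-- Bumps are finite data. -/
def Bump.equiv : Bump ≃ (ℕ ⊕ (ℤ × ℕ)) × ℕ × (ℤ × ℕ) × (ℤ × ℕ) :=
  ⟨Bump.toTuple, Bump.ofTuple, fun _ => rfl, fun _ => rfl⟩

instance : Primcodable Bump := Primcodable.ofEquiv _ Bump.equiv

/-- Tuples of finite data describing terms. -/
abbrev TermData :=
  (ℤ × ℕ) × ℕ × ℤ × List (ℤ × ℕ) × List (Bool × Bump) × (Fin 3 → List Bump)

/-- The data of a term as a tuple. -/
def Term.toTuple (τ : Term) : TermData := (τ.q, τ.m, τ.n, τ.logs, τ.time, τ.space)

/-- The term with given data. -/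
def Term.ofTuple (τ : TermData) : Term :=
  ⟨τ.1, τ.2.1, τ.2.2.1, τ.2.2.2.1, τ.2.2.2.2.1, τ.2.2.2.2.2⟩

/-- Terms are finite data. -/
def Term.equiv : Term ≃ TermData :=
  ⟨Term.toTuple, Term.ofTuple, fun _ => rfl, fun _ => rfl⟩

instance : Primcodable Term := Primcodable.ofEquiv _ Term.equiv

/-- A force compiler: an algorithm that on every pair (machine, input), given by their finite
descriptions, outputs for each component `i` of the force a finite list of (valid) terms, such that
for some `T₀` independent of the pair every non-periodic term vanishes for `t ≥ T₀`, and the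
list of periodic terms depends on the machine only. -/
structure IsForceCompiler (C : MachineCode × List ℕ → Fin 3 → List Term) : Prop where
  computable : ∀ i, Computable fun z => C z i
  valid : ∀ (M : Machine) (w : List (Fin (M.k + 1))) (i : Fin 3),
    ∀ τ ∈ C (M.code, wordCode w) i, τ.Valid
  transient : ∃ T₀ : ℝ, ∀ (M : Machine) (w : List (Fin (M.k + 1))) (i : Fin 3),
    ∀ τ ∈ C (M.code, wordCode w) i, τ.isPeriodic = false →
      ∀ (ν t : ℝ) (x : Fin 3 → ℝ), T₀ ≤ t → τ.val ν t x = 0
  periodic : ∀ (M : Machine) (w w' : List (Fin (M.k + 1))) (i : Fin 3),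
    (C (M.code, wordCode w) i).filter Term.isPeriodic =
      (C (M.code, wordCode w') i).filter Term.isPeriodic

/-- The force output by the compiler, as a function of time and space. -/
noncomputable def force (L : Fin 3 → List Term) (ν t : ℝ) (x : Fin 3 → ℝ) (i : Fin 3) : ℝ :=
  evalTerms (L i) ν t x

/-! ## Classical solutions -/

/-- `g` is `ℤ³`-periodic, i.e. a function on the flat torus. -/
def IsPer (g : (Fin 3 → ℝ) → ℝ) : Prop :=
  ∀ (x : Fin 3 → ℝ) (k : Fin 3 → ℤ), g (fun i => x i + k i) = g x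

/-- The partial derivative `∂_j g` at `x`. -/
noncomputable def pd (j : Fin 3) (g : (Fin 3 → ℝ) → ℝ) (x : Fin 3 → ℝ) : ℝ :=
  lineDeriv ℝ g x (Pi.single j 1)

/-- The partial derivative `∂_j g` exists everywhere. -/
def HasPd (j : Fin 3) (g : (Fin 3 → ℝ) → ℝ) : Prop :=
  ∀ x, LineDifferentiableAt ℝ g x (Pi.single j 1)

/-- `g`, as a function on `[0,T] × 𝕋³`, is continuous. -/
abbrev ContOn (T : ℝ) (g : ℝ → (Fin 3 → ℝ) → ℝ) : Prop :=
  ContinuousOn (fun z : ℝ × (Fin 3 → ℝ) => g z.1 z.2) (Set.Icc 0 T ×ˢ Set.univ)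

/-- `g` has mean zero over the torus. -/
abbrev MeanZero (g : (Fin 3 → ℝ) → ℝ) : Prop :=
  ∫ x in Set.Icc (0 : Fin 3 → ℝ) 1, g x = 0

/-- `(u, p)` is a classical solution on `[0,T] × 𝕋³` of
`∂_t u + (u·∇)u = -∇p + ν Δu + f`, `div u = 0`, `u(0,·) = 0`, with `p` of spatial mean zero. -/
structure IsClassicalSolution (ν T : ℝ) (f : ℝ → (Fin 3 → ℝ) → Fin 3 → ℝ)
    (u : ℝ → (Fin 3 → ℝ) → Fin 3 → ℝ) (p : ℝ → (Fin 3 → ℝ) → ℝ) : Prop where
  per_u : ∀ t ∈ Set.Icc 0 T, ∀ i, IsPer fun x => u t x i
  per_p : ∀ t ∈ Set.Icc 0 T, IsPer (p t)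
  cont_u : ∀ i, ContOn T fun t x => u t x i
  diff_t : ∀ i x, DifferentiableOn ℝ (fun s => u s x i) (Set.Icc 0 T)
  cont_t : ∀ i, ContOn T fun t x => derivWithin (fun s => u s x i) (Set.Icc 0 T) t
  diff_x : ∀ t ∈ Set.Icc 0 T, ∀ i j, HasPd j fun x => u t x i
  cont_x : ∀ i j, ContOn T fun t => pd j fun x => u t x i
  diff_xx : ∀ t ∈ Set.Icc 0 T, ∀ i j k, HasPd k (pd j fun x => u t x i)
  cont_xx : ∀ i j k, ContOn T fun t => pd k (pd j fun x => u t x i)
  cont_p : ContOn T p
  diff_p : ∀ t ∈ Set.Icc 0 T, ∀ j, HasPd j (p t)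
  cont_dp : ∀ j, ContOn T fun t => pd j (p t)
  mean_p : ∀ t ∈ Set.Icc 0 T, MeanZero (p t)
  div_free : ∀ t ∈ Set.Icc 0 T, ∀ x, ∑ j, pd j (fun y => u t y j) x = 0
  momentum : ∀ t ∈ Set.Icc 0 T, ∀ x i,
    derivWithin (fun s => u s x i) (Set.Icc 0 T) t + ∑ j, u t x j * pd j (fun y => u t y i) x =
      - pd i (p t) x + ν * ∑ j, pd j (pd j fun y => u t y i) x + f t x i
  init : ∀ x i, u 0 x i = 0

/-! ## Trajectories -/

/-- `X` is the trajectory of `a`: `X(0) = a` and `X'(t) = u(t, X(t))` for `t ≥ 0`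
(lifted from the torus to `ℝ³`). -/
def IsTrajectory (u : ℝ → (Fin 3 → ℝ) → Fin 3 → ℝ) (a : Fin 3 → ℝ) (X : ℝ → Fin 3 → ℝ) : Prop :=
  X 0 = a ∧ ∀ t, 0 ≤ t → HasDerivWithinAt X (u t (X t)) (Set.Ici 0) t

/-- The point of the torus represented by `x` lies in the image of the open box with corners
`lo` and `hi`. -/
def InBox (lo hi : Fin 3 → ℚ) (x : Fin 3 → ℝ) : Prop :=
  ∃ k : Fin 3 → ℤ, ∀ i, (lo i : ℝ) < x i + k i ∧ x i + k i < (hi i : ℝ)

end Vale.Agent.P113
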